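import Mathlib

/-!
Polynomials `F` whose quotient ring is again a polynomial ring, and divisibility in the quotient.
-/

namespace Vale.Agent.Sparse

open MvPolynomial

variable {σ : Type}

/-- `F` generates the kernel of a surjection onto a polynomial ring. -/
def Nice (F : MvPolynomial σ ℂ) : Prop :=
  ∃ (τ : Type) (p : MvPolynomial σ ℂ →ₐ[ℂ] MvPolynomial τ ℂ),
    Function.Surjective p ∧ ∀ g, p g = 0 ↔ F ∣ g

open Classical in
/-- substitute zero for the variables in `S` -/
noncomputable def kill (S : Set σ) : MvPolynomial σ ℂ →ₐ[ℂ] MvPolynomial σ ℂ :=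
  aeval (fun j => if j ∈ S then 0 else X j)

/-- rescale the variables -/
noncomputable def scale (lam : σ → ℂ) : MvPolynomial σ ℂ →ₐ[ℂ] MvPolynomial σ ℂ :=
  aeval (fun j => C (lam j) * X j)

theorem kill_X_mem {S : Set σ} {j : σ} (h : j ∈ S) : kill S (X j) = 0 := by
  simp [kill, h]

theorem kill_X_not_mem {S : Set σ} {j : σ} (h : j ∉ S) : kill S (X j) = X j := by
  simp [kill, h]

theorem kill_sub_mem (S : Set σ) (g : MvPolynomial σ ℂ) :
    g - kill S g ∈ Ideal.span (X '' S : Set (MvPolynomial σ ℂ)) := by
  induction g using MvPolynomial.induction_on with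
  | C a => simp [kill]
  | add p q hp hq =>
    have : p + q - kill S (p + q) = (p - kill S p) + (q - kill S q) := by
      rw [map_add]; ring
    rw [this]
    exact Ideal.add_mem _ hp hq
  | mul_X p j hp =>
    have : p * X j - kill S (p * X j) = (p - kill S p) * X j + kill S p * (X j - kill S (X j)) := by
      rw [map_mul]; ring
    rw [this]
    refine Ideal.add_mem _ (Ideal.mul_mem_right _ _ hp) (Ideal.mul_mem_left _ _ ?_)
    by_cases hj : j ∈ S
    · rw [kill_X_mem hj, sub_zero]
      exact Ideal.subset_span ⟨j, hj, rfl⟩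
    · rw [kill_X_not_mem hj, sub_self]
      exact Ideal.zero_mem _

theorem constantCoeff_kill (S : Set σ) (g : MvPolynomial σ ℂ) :
    constantCoeff (kill S g) = constantCoeff g := by
  induction g using MvPolynomial.induction_on with
  | C a => simp [kill]
  | add p q hp hq => rw [map_add, map_add, map_add, hp, hq]
  | mul_X p j hp =>
    rw [map_mul, map_mul, map_mul]
    by_cases hj : j ∈ S
    · rw [kill_X_mem hj]; simp
    · rw [kill_X_not_mem hj, hp]

theorem constantCoeff_scale (lam : σ → ℂ) (g : MvPolynomial σ ℂ) :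
    constantCoeff (scale lam g) = constantCoeff g := by
  induction g using MvPolynomial.induction_on with
  | C a => simp [scale]
  | add p q hp hq => rw [map_add, map_add, map_add, hp, hq]
  | mul_X p j hp =>
    rw [map_mul, map_mul, map_mul]
    simp [scale]

/-- the character of a monomial -/
noncomputable def chi (lam : σ → ℂ) (m : σ →₀ ℕ) : ℂ := m.prod fun j k => lam j ^ k

theorem scale_monomial (lam : σ → ℂ) (m : σ →₀ ℕ) (c : ℂ) :
    scale lam (monomial m c) = monomial m (chi lam m * c) := by
  rw [scale, aeval_monomial]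
  simp only [chi, Finsupp.prod, mul_pow]
  rw [Finset.prod_mul_distrib]
  rw [monomial_eq (s := m) (a := (∏ j ∈ m.support, lam j ^ m j) * c)]
  rw [C_mul, map_prod]
  simp only [algebraMap_eq, C_pow, Finsupp.prod]
  ring

theorem coeff_scale (lam : σ → ℂ) (g : MvPolynomial σ ℂ) (m : σ →₀ ℕ) :
    coeff m (scale lam g) = chi lam m * coeff m g := by
  classical
  induction g using MvPolynomial.induction_on' with
  | monomial n c =>
    rw [scale_monomial, coeff_monomial, coeff_monomial]
    split_ifs with h
    · rw [h]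
    · simp
  | add p q hp hq => rw [map_add, coeff_add, coeff_add, hp, hq]; ring

theorem scale_X (lam : σ → ℂ) (j : σ) : scale lam (X j : MvPolynomial σ ℂ) = C (lam j) * X j := by
  simp [scale]

theorem kill_C (S : Set σ) (c : ℂ) : kill S (C c : MvPolynomial σ ℂ) = C c := by
  simp [kill]

theorem scale_C (lam : σ → ℂ) (c : ℂ) : scale lam (C c : MvPolynomial σ ℂ) = C c := by
  simp [scale]

theorem scale_scale (lam mu : σ → ℂ) (h : ∀ j, lam j * mu j = 1) (g : MvPolynomial σ ℂ) :
    scale lam (scale mu g) = g := by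
  have hh : (scale lam).comp (scale mu) = AlgHom.id ℂ (MvPolynomial σ ℂ) := by
    apply MvPolynomial.algHom_ext
    intro j
    rw [AlgHom.comp_apply, scale_X, map_mul, scale_C, scale_X, ← mul_assoc, ← C_mul,
      mul_comm (mu j), h j, C_1, one_mul, AlgHom.id_apply]
  exact congrArg (fun φ : MvPolynomial σ ℂ →ₐ[ℂ] MvPolynomial σ ℂ => φ g) hh

theorem kill_scale (S : Set σ) (lam : σ → ℂ) (g : MvPolynomial σ ℂ) :
    kill S (scale lam g) = scale lam (kill S g) := by
  have h : (kill S).comp (scale lam) = (scale lam).comp (kill S) := by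
    apply MvPolynomial.algHom_ext
    intro j
    rw [AlgHom.comp_apply, AlgHom.comp_apply, scale_X]
    by_cases hj : j ∈ S
    · rw [map_mul, kill_X_mem hj, mul_zero, map_zero]
    · rw [map_mul, kill_X_not_mem hj, kill_C, scale_X]
  exact congrArg (fun φ : MvPolynomial σ ℂ →ₐ[ℂ] MvPolynomial σ ℂ => φ g) h

theorem kill_monomial_mem (S : Set σ) (m : σ →₀ ℕ) (c : ℂ) (j : σ) (hj : j ∈ S) (hm : m j ≠ 0) :
    kill S (monomial m c) = 0 := by
  have h1 : X j ∣ (monomial m c : MvPolynomial σ ℂ) := by
    refine ⟨monomial (m - Finsupp.single j 1) c, ?_⟩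
    rw [X, monomial_mul, one_mul]
    congr 1
    rw [add_tsub_cancel_of_le]
    rw [Finsupp.single_le_iff]
    omega
  obtain ⟨k, hk⟩ := h1
  rw [hk, map_mul, kill_X_mem hj, zero_mul]

theorem kill_monomial_not_mem (S : Set σ) (m : σ →₀ ℕ) (c : ℂ) (hm : ∀ j ∈ S, m j = 0) :
    kill S (monomial m c) = monomial m c := by
  rw [monomial_eq, map_mul, kill_C, Finsupp.prod, map_prod]
  congr 1
  refine Finset.prod_congr rfl fun j hj => ?_
  rw [map_pow, kill_X_not_mem]
  intro h
  exact (Finsupp.mem_support_iff.mp hj) (hm j h)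

theorem coeff_kill (S : Set σ) (g : MvPolynomial σ ℂ) (m : σ →₀ ℕ) (hm : ∀ j ∈ S, m j = 0) :
    coeff m (kill S g) = coeff m g := by
  classical
  induction g using MvPolynomial.induction_on' with
  | monomial n c =>
    by_cases h : ∀ j ∈ S, n j = 0
    · rw [kill_monomial_not_mem S n c h]
    · push Not at h
      obtain ⟨j, hj, hn⟩ := h
      rw [kill_monomial_mem S n c j hj hn, coeff_monomial, if_neg, coeff_zero]
      rintro rfl
      exact hn (hm j hj)
  | add p q hp hq => rw [map_add, coeff_add, coeff_add, hp, hq]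

theorem isUnit_const {τ : Type} (g : MvPolynomial τ ℂ) (h : IsUnit g) : ∃ c : ℂ, c ≠ 0 ∧ g = C c := by
  rw [MvPolynomial.isUnit_iff_eq_C_of_isReduced] at h
  obtain ⟨r, hr, rfl⟩ := h
  exact ⟨r, hr.ne_zero, rfl⟩

/-- a polynomial all of whose monomials contain `X i` is divisible by `X i` -/
theorem X_dvd_of (i : σ) (g : MvPolynomial σ ℂ) (h : ∀ m, coeff m g ≠ 0 → m i ≠ 0) : X i ∣ g := by
  have h0 : kill {i} g = 0 := by
    ext m
    rw [coeff_zero]
    by_cases hm : m i = 0
    · rw [coeff_kill _ _ _ (by intro j hj; rw [Set.mem_singleton_iff.mp hj]; exact hm)]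
      by_contra hc
      exact h m hc hm
    · -- coefficients of the image vanish
      have : ∀ g : MvPolynomial σ ℂ, coeff m (kill {i} g) = 0 := by
        classical
        intro g
        induction g using MvPolynomial.induction_on' with
        | monomial n c =>
          by_cases hn : n i = 0
          · rw [kill_monomial_not_mem _ _ _ (by
              intro j hj; rw [Set.mem_singleton_iff.mp hj]; exact hn), coeff_monomial, if_neg]
            rintro rfl
            exact hm hn
          · rw [kill_monomial_mem _ _ _ i (Set.mem_singleton i) hn, coeff_zero]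
        | add p q hp hq => rw [map_add, coeff_add, hp, hq, add_zero]
      exact this g
  have h1 := kill_sub_mem {i} g
  rw [h0, sub_zero, Set.image_singleton, Ideal.mem_span_singleton] at h1
  exact h1

end Vale.Agent.Sparse
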