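import Vale.Agent.Sparse.Smooth

/-!
Construction of coordinates.
-/

namespace Vale.Agent.Sparse

open MvPolynomial

variable {σ : Type}

/-- `f` is a coordinate: some automorphism sends it to a variable. -/
def IsCoord (f : MvPolynomial σ ℂ) : Prop :=
  ∃ (e : MvPolynomial σ ℂ ≃ₐ[ℂ] MvPolynomial σ ℂ) (i : σ), e f = X i

theorem hom_congr {B : Type*} [CommRing B] [Algebra ℂ B] (S : Set σ) (g : MvPolynomial σ ℂ)
    (hg : kill S g = g) (φ ψ : MvPolynomial σ ℂ →ₐ[ℂ] B)
    (h : ∀ j, j ∉ S → φ (X j) = ψ (X j)) : φ g = ψ g := by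
  have h1 : φ.comp (kill S) = ψ.comp (kill S) := by
    apply MvPolynomial.algHom_ext
    intro j
    rw [AlgHom.comp_apply, AlgHom.comp_apply]
    by_cases hj : j ∈ S
    · rw [kill_X_mem hj, map_zero, map_zero]
    · rw [kill_X_not_mem hj, h j hj]
  have h2 := congrArg (fun χ : MvPolynomial σ ℂ →ₐ[ℂ] B => χ g) h1
  simp only [AlgHom.comp_apply, hg] at h2
  exact h2

theorem kill_congr_of_subset {S T : Set σ} (h : S ⊆ T) (g : MvPolynomial σ ℂ)
    (hg : kill T g = g) : kill S g = g := by
  have := hom_congr T g hg (kill S) (AlgHom.id ℂ _) (by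
    intro j hj
    rw [kill_X_not_mem (fun hs => hj (h hs)), AlgHom.id_apply])
  simpa using this

open Classical in
/-- substitute `h` for the variable `a` -/
noncomputable def sub (a : σ) (h : MvPolynomial σ ℂ) : MvPolynomial σ ℂ →ₐ[ℂ] MvPolynomial σ ℂ :=
  aeval (Function.update X a h)

theorem sub_self_X (a : σ) (h : MvPolynomial σ ℂ) : sub a h (X a) = h := by
  simp [sub]

theorem sub_ne_X {a j : σ} (hj : j ≠ a) (h : MvPolynomial σ ℂ) : sub a h (X j) = X j := by
  classical
  simp [sub, Function.update_of_ne hj]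

theorem sub_X_eq (a : σ) (g : MvPolynomial σ ℂ) : sub a (X a) g = g := by
  have : sub a (X a) = AlgHom.id ℂ (MvPolynomial σ ℂ) := by
    apply MvPolynomial.algHom_ext
    intro j
    by_cases hj : j = a
    · rw [hj, sub_self_X, AlgHom.id_apply]
    · rw [sub_ne_X hj, AlgHom.id_apply]
  rw [this, AlgHom.id_apply]

theorem sub_dvd (a : σ) (h h' g : MvPolynomial σ ℂ) : h - h' ∣ sub a h g - sub a h' g := by
  induction g using MvPolynomial.induction_on with
  | C c => simp [sub]
  | add p q hp hq =>
    have : sub a h (p + q) - sub a h' (p + q)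
        = (sub a h p - sub a h' p) + (sub a h q - sub a h' q) := by
      rw [map_add, map_add]; ring
    rw [this]
    exact dvd_add hp hq
  | mul_X p j hp =>
    have : sub a h (p * X j) - sub a h' (p * X j)
        = (sub a h p - sub a h' p) * sub a h (X j)
          + sub a h' p * (sub a h (X j) - sub a h' (X j)) := by
      rw [map_mul, map_mul]; ring
    rw [this]
    refine dvd_add (dvd_mul_of_dvd_left hp _) (dvd_mul_of_dvd_right ?_ _)
    by_cases hj : j = a
    · rw [hj, sub_self_X, sub_self_X]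
    · rw [sub_ne_X hj, sub_ne_X hj, sub_self]
      exact dvd_zero _

theorem coord_of (a i : σ) (hai : a ≠ i) (r N Q : MvPolynomial σ ℂ) (m : ℕ)
    (hr : kill {a, i} r = r) (hQ : kill {a, i} Q = Q) (hN : kill {i} N = N) (hQ0 : Q ≠ 0)
    (hd : Q ∣ r ^ m) : IsCoord (X a + r * N + Q * X i) := by
  classical
  set F₀ : MvPolynomial σ ℂ := X a + r * N with hF₀
  set F : MvPolynomial σ ℂ := F₀ + Q * X i with hF
  have hri : kill {i} r = r := kill_congr_of_subset (by simp) r hr
  have hXa : kill {i} (X a : MvPolynomial σ ℂ) = X a := kill_X_not_mem (by simpa using hai)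
  have hF₀i : kill {i} F₀ = F₀ := by rw [hF₀, map_add, map_mul, hri, hN, hXa]
  have hfix : ∀ (φ : MvPolynomial σ ℂ →ₐ[ℂ] MvPolynomial σ ℂ),
      (∀ j, j ≠ a → j ≠ i → φ (X j) = X j) → ∀ g, kill {a, i} g = g → φ g = g := by
    intro φ h g hg
    have := hom_congr {a, i} g hg φ (AlgHom.id ℂ _) (by
      intro j hj
      rw [Set.mem_insert_iff, Set.mem_singleton_iff, not_or] at hj
      rw [h j hj.1 hj.2, AlgHom.id_apply])
    simpa using this
  have hsubr : ∀ h, sub a h r = r := fun h => hfix _ (fun j hj _ => sub_ne_X hj h) r hr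
  have hsubQ : ∀ h, sub a h Q = Q := fun h => hfix _ (fun j hj _ => sub_ne_X hj h) Q hQ
  -- the iteration
  have hpic : ∀ m : ℕ, ∃ G, kill {i} G = G ∧ r ^ m ∣ sub a G F₀ - X a := by
    intro m
    induction m with
    | zero => exact ⟨X a, hXa, by simp⟩
    | succ m ih =>
      obtain ⟨G, hG, hGd⟩ := ih
      refine ⟨X a - r * sub a G N, ?_, ?_⟩
      · rw [map_sub, map_mul, hXa, hri]
        congr 2
        have := hom_congr {i} N hN ((kill {i}).comp (sub a G)) (sub a G) (by
          intro j hj
          rw [AlgHom.comp_apply]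
          by_cases hja : j = a
          · rw [hja, sub_self_X, hG]
          · rw [sub_ne_X hja, kill_X_not_mem hj])
        exact this
      · set G' := X a - r * sub a G N with hG'
        have h1 : sub a G F₀ = G + r * sub a G N := by
          rw [hF₀, map_add, map_mul, sub_self_X, hsubr]
        have h2 : sub a G' F₀ = G' + r * sub a G' N := by
          rw [hF₀, map_add, map_mul, sub_self_X, hsubr]
        have h3 : G' - G = - (sub a G F₀ - X a) := by rw [h1, hG']; ring
        have h4 : r ^ m ∣ G' - G := by rw [h3]; exact (dvd_neg).mpr hGd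
        have h5 : r ^ m ∣ sub a G' N - sub a G N := h4.trans (sub_dvd a G' G N)
        have h6 : sub a G' F₀ - X a = r * (sub a G' N - sub a G N) := by
          rw [h2, hG']; ring
        rw [h6, pow_succ, mul_comm]
        exact mul_dvd_mul_left r h5
  obtain ⟨G, hG, hGd⟩ := hpic m
  have hGQ : Q ∣ sub a G F₀ - X a := hd.trans hGd
  set H := sub a F G with hH
  have hcomp : ∀ g, sub a F (sub a G g) = sub a H g := by
    intro g
    have : (sub a F).comp (sub a G) = sub a H := by
      apply MvPolynomial.algHom_ext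
      intro j
      rw [AlgHom.comp_apply]
      by_cases hja : j = a
      · rw [hja, sub_self_X, sub_self_X]
      · rw [sub_ne_X hja, sub_ne_X hja, sub_ne_X hja]
    rw [← this, AlgHom.comp_apply]
  have hHQ : Q ∣ X a - H := by
    have h1 : Q ∣ sub a H F₀ - F := by
      obtain ⟨k, hk⟩ := hGQ
      refine ⟨sub a F k, ?_⟩
      have := congrArg (sub a F) hk
      rw [map_sub, map_mul, hsubQ, sub_self_X, hcomp] at this
      exact this
    have h2 : Q ∣ sub a H F₀ - F₀ := by
      have h3 : sub a H F₀ - F₀ = (sub a H F₀ - F) + Q * X i := by rw [hF]; ring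
      rw [h3]
      exact dvd_add h1 (dvd_mul_right _ _)
    obtain ⟨K, hK⟩ := sub_dvd a H (X a) N
    rw [sub_X_eq] at hK
    have h4 : sub a H F₀ - F₀ = (H - X a) * (1 + r * K) := by
      have h5 : sub a H F₀ = H + r * sub a H N := by
        rw [hF₀, map_add, map_mul, sub_self_X, hsubr]
      have h6 : sub a H N = N + (H - X a) * K := by rw [← hK]; ring
      rw [h5, h6, hF₀]; ring
    rw [h4] at h2
    have h7 : IsCoprime r (1 + r * K) := ⟨-K, 1, by ring⟩
    have h8 : IsCoprime Q (1 + r * K) := (h7.pow_left (m := m)).of_isCoprime_of_dvd_left hd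
    have h9 := h8.dvd_of_dvd_mul_right h2
    have h10 : X a - H = - (H - X a) := by ring
    rw [h10]
    exact (dvd_neg).mpr h9
  obtain ⟨U, hU⟩ := hHQ
  set B := G + Q * X i with hB
  have hBQ : Q ∣ X a - sub a B F₀ := by
    have h1 : Q ∣ sub a B F₀ - sub a G F₀ := by
      refine dvd_trans ?_ (sub_dvd a B G F₀)
      rw [hB, add_sub_cancel_left]
      exact dvd_mul_right _ _
    have h2 : X a - sub a B F₀ = - ((sub a B F₀ - sub a G F₀) + (sub a G F₀ - X a)) := by ring
    rw [h2]
    exact (dvd_neg).mpr (dvd_add h1 hGQ)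
  obtain ⟨W, hW⟩ := hBQ
  -- the two mutually inverse maps
  set α : MvPolynomial σ ℂ →ₐ[ℂ] MvPolynomial σ ℂ :=
    aeval (Function.update (Function.update X a F) i U) with hα
  set β : MvPolynomial σ ℂ →ₐ[ℂ] MvPolynomial σ ℂ :=
    aeval (Function.update (Function.update X a B) i W) with hβ
  have hαa : α (X a) = F := by simp [hα, Function.update_of_ne hai]
  have hαi : α (X i) = U := by simp [hα]
  have hαj : ∀ j, j ≠ a → j ≠ i → α (X j) = X j := by
    intro j h1 h2
    simp [hα, Function.update_of_ne h1, Function.update_of_ne h2]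
  have hβa : β (X a) = B := by simp [hβ, Function.update_of_ne hai]
  have hβi : β (X i) = W := by simp [hβ]
  have hβj : ∀ j, j ≠ a → j ≠ i → β (X j) = X j := by
    intro j h1 h2
    simp [hβ, Function.update_of_ne h1, Function.update_of_ne h2]
  have hαQ : α Q = Q := hfix α hαj Q hQ
  have hβQ : β Q = Q := hfix β hβj Q hQ
  have hβF : β F = X a := by
    have h1 : β F₀ = sub a B F₀ := hom_congr {i} F₀ hF₀i β (sub a B) (by
      intro j hj
      by_cases hja : j = a
      · rw [hja, hβa, sub_self_X]
      · rw [hβj j hja (by simpa using hj), sub_ne_X hja])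
    rw [hF, map_add, map_mul, h1, hβQ, hβi, ← hW]
    ring
  have hβU : β U = X i := by
    have h1 : β (sub a F G) = G := by
      have := hom_congr {i} G hG (β.comp (sub a F)) (AlgHom.id ℂ _) (by
        intro j hj
        rw [AlgHom.comp_apply, AlgHom.id_apply]
        by_cases hja : j = a
        · rw [hja, sub_self_X, hβF]
        · rw [sub_ne_X hja, hβj j hja (by simpa using hj)])
      simpa using this
    have h2 := congrArg β hU
    rw [map_sub, map_mul, hβa, hβQ, hH, h1, hB, add_sub_cancel_left] at h2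
    exact (mul_left_cancel₀ hQ0 h2).symm
  have hαB : α B = X a := by
    have h1 : α G = sub a F G := hom_congr {i} G hG α (sub a F) (by
      intro j hj
      by_cases hja : j = a
      · rw [hja, hαa, sub_self_X]
      · rw [hαj j hja (by simpa using hj), sub_ne_X hja])
    rw [hB, map_add, map_mul, h1, hαQ, hαi, ← hU, hH]
    ring
  have hαW : α W = X i := by
    have h1 : α (sub a B F₀) = F₀ := by
      have := hom_congr {i} F₀ hF₀i (α.comp (sub a B)) (AlgHom.id ℂ _) (by
        intro j hj
        rw [AlgHom.comp_apply, AlgHom.id_apply]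
        by_cases hja : j = a
        · rw [hja, sub_self_X, hαB]
        · rw [sub_ne_X hja, hαj j hja (by simpa using hj)])
      simpa using this
    have h2 := congrArg α hW
    rw [map_sub, map_mul, hαa, hαQ, h1, hF, add_sub_cancel_left] at h2
    exact (mul_left_cancel₀ hQ0 h2).symm
  have hβα : β.comp α = AlgHom.id ℂ _ := by
    apply MvPolynomial.algHom_ext
    intro j
    rw [AlgHom.comp_apply, AlgHom.id_apply]
    by_cases hja : j = a
    · rw [hja, hαa, hβF]
    · by_cases hji : j = i
      · rw [hji, hαi, hβU]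
      · rw [hαj j hja hji, hβj j hja hji]
  have hαβ : α.comp β = AlgHom.id ℂ _ := by
    apply MvPolynomial.algHom_ext
    intro j
    rw [AlgHom.comp_apply, AlgHom.id_apply]
    by_cases hja : j = a
    · rw [hja, hβa, hαB]
    · by_cases hji : j = i
      · rw [hji, hβi, hαW]
      · rw [hβj j hja hji, hαj j hja hji]
  exact ⟨AlgEquiv.ofAlgHom β α hβα hαβ, a, hβF⟩

theorem coord_triangular (a : σ) (c : ℂ) (hc : c ≠ 0) (h : MvPolynomial σ ℂ)
    (hh : kill {a} h = h) : IsCoord (C c * X a + h) := by
  have hsub : ∀ k, sub a k h = h := by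
    intro k
    have := hom_congr {a} h hh (sub a k) (AlgHom.id ℂ _) (by
      intro j hj
      rw [sub_ne_X (by simpa using hj), AlgHom.id_apply])
    simpa using this
  have hC : ∀ (φ : MvPolynomial σ ℂ →ₐ[ℂ] MvPolynomial σ ℂ) (z : ℂ), φ (C z) = C z :=
    fun φ z => φ.commutes z
  have hcc : (C c : MvPolynomial σ ℂ) * C c⁻¹ = 1 := by
    rw [← C_mul, mul_inv_cancel₀ hc, C_1]
  have hkey : sub a (C c⁻¹ * (X a - h)) (C c * X a + h) = X a := by
    rw [map_add, map_mul, hC, sub_self_X, hsub, ← mul_assoc, hcc]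
    ring
  have h1 : (sub a (C c⁻¹ * (X a - h))).comp (sub a (C c * X a + h)) = AlgHom.id ℂ _ := by
    apply MvPolynomial.algHom_ext
    intro j
    rw [AlgHom.comp_apply, AlgHom.id_apply]
    by_cases hja : j = a
    · rw [hja, sub_self_X, hkey]
    · rw [sub_ne_X hja, sub_ne_X hja]
  have h2 : (sub a (C c * X a + h)).comp (sub a (C c⁻¹ * (X a - h))) = AlgHom.id ℂ _ := by
    apply MvPolynomial.algHom_ext
    intro j
    rw [AlgHom.comp_apply, AlgHom.id_apply]
    by_cases hja : j = a
    · rw [hja, sub_self_X, map_mul, hC, map_sub, sub_self_X, hsub, add_sub_cancel_right,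
        ← mul_assoc, mul_comm (C c⁻¹), hcc, one_mul]
    · rw [sub_ne_X hja, sub_ne_X hja]
  exact ⟨AlgEquiv.ofAlgHom _ _ h1 h2, a, hkey⟩

theorem coord_affine (f : MvPolynomial σ ℂ) (hf : IsCoord f) (c d : ℂ) (hc : c ≠ 0) :
    IsCoord (C c * f + C d) := by
  obtain ⟨e, i, he⟩ := hf
  obtain ⟨e', i', he'⟩ := coord_triangular i c hc (C d) (kill_C _ _)
  refine ⟨e.trans e', i', ?_⟩
  rw [AlgEquiv.trans_apply, map_add, map_mul, he]
  have h1 : ∀ z : ℂ, e (C z) = C z := fun z => e.commutes z
  rw [h1, h1, he']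

end Vale.Agent.Sparse
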