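import Vale.Agent.Sparse.Basic

/-!
The key lemmas: which polynomials `X a * u + c x^q` can be nice.
-/

namespace Vale.Agent.Sparse

open MvPolynomial

variable {σ : Type}

theorem nice_section {τ : Type}
    (p : MvPolynomial σ ℂ →ₐ[ℂ] MvPolynomial τ ℂ) (hs : Function.Surjective p) :
    ∃ s : MvPolynomial τ ℂ →ₐ[ℂ] MvPolynomial σ ℂ, ∀ e, p (s e) = e := by
  choose G hG using fun k : τ => hs (X k)
  refine ⟨aeval G, fun e => ?_⟩
  have h : p.comp (aeval G) = AlgHom.id ℂ (MvPolynomial τ ℂ) := by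
    apply MvPolynomial.algHom_ext
    intro k
    rw [AlgHom.comp_apply, aeval_X, hG, AlgHom.id_apply]
  exact congrArg (fun φ : MvPolynomial τ ℂ →ₐ[ℂ] MvPolynomial τ ℂ => φ e) h

/-- `F` divides no nonzero multiple of `X a`, etc. -/
theorem not_dvd_X (F u : MvPolynomial σ ℂ) (q : σ →₀ ℕ) (c : ℂ) (a i : σ) (hai : a ≠ i)
    (hF : F = X a * u + monomial q c) (hqi : q i ≠ 0) (hui : ¬ IsUnit (kill {i} u))
    (h : MvPolynomial σ ℂ) : ¬ F ∣ X a - X i * h := by
  rintro ⟨k, hk⟩
  have h1 := congrArg (kill {i}) hk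
  rw [map_sub, map_mul, map_mul, hF, map_add, map_mul, kill_X_mem (Set.mem_singleton i),
    kill_monomial_mem {i} q c i (Set.mem_singleton i) hqi, kill_X_not_mem (by simpa using hai),
    zero_mul, sub_zero, add_zero] at h1
  have hX : (X a : MvPolynomial σ ℂ) ≠ 0 := X_ne_zero a
  have h2 : (X a : MvPolynomial σ ℂ) * 1 = X a * (kill {i} u * kill {i} k) := by
    rw [mul_one, ← mul_assoc]; exact h1
  have h3 := mul_left_cancel₀ hX h2
  exact hui (IsUnit.of_mul_eq_one _ h3.symm)

theorem not_dvd_u (F u : MvPolynomial σ ℂ) (q : σ →₀ ℕ) (c : ℂ) (a i : σ) (hai : a ≠ i)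
    (hF : F = X a * u + monomial q c) (hqi : q i ≠ 0) (hu0 : constantCoeff u ≠ 0)
    (h : MvPolynomial σ ℂ) : ¬ F ∣ u - X i * h := by
  rintro ⟨k, hk⟩
  have h1 := congrArg (kill {i}) hk
  rw [map_sub, map_mul, map_mul, hF, map_add, map_mul, kill_X_mem (Set.mem_singleton i),
    kill_monomial_mem {i} q c i (Set.mem_singleton i) hqi, kill_X_not_mem (by simpa using hai),
    zero_mul, sub_zero, add_zero] at h1
  have h2 := congrArg constantCoeff h1
  rw [map_mul, map_mul, constantCoeff_X, zero_mul, zero_mul, constantCoeff_kill] at h2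
  exact hu0 h2

/-- Key lemma. -/
theorem key (F u : MvPolynomial σ ℂ) (q : σ →₀ ℕ) (c : ℂ) (a i : σ) (hai : a ≠ i)
    (hF : F = X a * u + monomial q c) (hqa : q a = 0) (hqi : q i ≠ 0) (hc : c ≠ 0)
    (hu0 : constantCoeff u ≠ 0) (hui : ¬ IsUnit (kill {i} u))
    (lam : σ → ℂ) (hlam : ∀ j, lam j ≠ 0) (hS : scale lam F = F)
    (hchar : ∀ m : σ →₀ ℕ, chi lam m = lam i → m i ≠ 0) (hN : Nice F) : False := by
  obtain ⟨τ, p, hsurj, hker⟩ := hN
  obtain ⟨s, hs⟩ := nice_section p hsurj
  set θ := kill ({a, i} : Set σ) with hθ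
  have hθF : θ F = 0 := by
    rw [hF, map_add, map_mul, kill_X_mem (by simp),
      kill_monomial_mem _ q c i (by simp) hqi, zero_mul, add_zero]
  have hθp : ∀ g, θ (s (p g)) = θ g := by
    intro g
    have h1 : p (s (p g) - g) = 0 := by rw [map_sub, hs, sub_self]
    obtain ⟨k, hk⟩ := (hker _).mp h1
    have h2 := congrArg θ hk
    rw [map_mul, hθF, zero_mul, map_sub, sub_eq_zero] at h2
    exact h2
  -- elements of the kernel of θ ∘ s
  have hkerθ : ∀ e, θ (s e) = 0 → ∃ r t, e = p r * p (X a) + p t * p (X i) := by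
    intro e he
    have h1 := kill_sub_mem ({a, i} : Set σ) (s e)
    rw [← hθ, he, sub_zero, Set.image_pair] at h1
    obtain ⟨r, t, hrt⟩ := Ideal.mem_span_pair.mp h1
    refine ⟨r, t, ?_⟩
    rw [← map_mul, ← map_mul, ← map_add, hrt, hs]
  have hθXa : θ (X a : MvPolynomial σ ℂ) = 0 := kill_X_mem (by simp)
  -- a prime factor of X a
  have hXa : p (X a) ≠ 0 := by
    intro h
    have h1 := (hker _).mp h
    refine not_dvd_X F u q c a i hai hF hqi hui 0 ?_
    rwa [mul_zero, sub_zero]
  obtain ⟨f, hfp, v, hfv⟩ := UniqueFactorizationMonoid.exists_prime_factors (p (X a)) hXa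
  have hz : θ (s f.prod) = 0 := by
    have h1 : θ (s (f.prod * (v : MvPolynomial τ ℂ))) = 0 := by rw [hfv, hθp, hθXa]
    rw [map_mul, map_mul] at h1
    have h2 : IsUnit (θ (s (v : MvPolynomial τ ℂ))) :=
      (v.isUnit.map s).map θ
    rcases mul_eq_zero.mp h1 with h | h
    · exact h
    · exact absurd h h2.ne_zero
  obtain ⟨π, hπf, hπz⟩ : ∃ π ∈ f, θ (s π) = 0 := by
    have h1 : θ (s f.prod) = (f.map (fun e => θ (s e))).prod := by
      have : (f.map (fun e => θ (s e))) = (f.map s).map θ := by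
        rw [Multiset.map_map]; rfl
      rw [this, map_multiset_prod, map_multiset_prod]
    rw [h1, Multiset.prod_eq_zero_iff] at hz
    obtain ⟨π, hπ, h⟩ := Multiset.mem_map.mp hz
    exact ⟨π, hπ, h⟩
  have hπp : Prime π := hfp π hπf
  have hπa : π ∣ p (X a) := by
    refine dvd_trans (Multiset.dvd_prod hπf) ?_
    exact ⟨v, hfv.symm⟩
  have hrel : p (X a) * p u = - p (monomial q c) := by
    have h1 : p F = 0 := (hker F).mpr dvd_rfl
    rw [hF, map_add, map_mul] at h1
    exact eq_neg_of_add_eq_zero_left h1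
  have hπi : π ∣ p (X i) := by
    have h1 : π ∣ p (monomial q c) := by
      have := dvd_mul_of_dvd_left hπa (p u)
      rw [hrel] at this
      exact (dvd_neg.mp this)
    rw [monomial_eq, map_mul, Finsupp.prod, map_prod] at h1
    have h2 : ¬ π ∣ p (C c) := by
      intro h
      have h3 : IsUnit (p (C c : MvPolynomial σ ℂ)) :=
        ((isUnit_iff_ne_zero.mpr hc).map (C : ℂ →+* MvPolynomial σ ℂ)).map p
      exact hπp.not_isUnit (isUnit_of_dvd_unit h h3)
    have h3 := (hπp.dvd_or_dvd h1).resolve_left h2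
    obtain ⟨j, hj, hd⟩ := (Prime.dvd_finsetProd_iff hπp _).mp h3
    rw [map_pow] at hd
    have hd' : π ∣ p (X j) := hπp.dvd_of_dvd_pow hd
    have h4 : θ (X j : MvPolynomial σ ℂ) = 0 := by
      obtain ⟨k, hk⟩ := hd'
      have h5 := congrArg (fun e => θ (s e)) hk
      rw [hθp, map_mul, map_mul, hπz, zero_mul] at h5
      exact h5
    have hja : j = a ∨ j = i := by
      by_contra hcon
      have : j ∉ ({a, i} : Set σ) := by simpa using hcon
      rw [hθ, kill_X_not_mem this] at h4
      exact X_ne_zero j h4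
    rcases hja with h | h
    · exact absurd hqa (by rw [← h]; exact Finsupp.mem_support_iff.mp hj)
    · rw [← h]; exact hd'
  have hdvd : ∀ e, θ (s e) = 0 → π ∣ e := by
    intro e he
    obtain ⟨r, t, hrt⟩ := hkerθ e he
    rw [hrt]
    exact dvd_add (dvd_mul_of_dvd_right hπa _) (dvd_mul_of_dvd_right hπi _)
  obtain ⟨ρ, hρ⟩ := hπi
  obtain ⟨τ', hτ'⟩ := hπa
  obtain ⟨r, t, hrt⟩ := hkerθ π hπz
  have hπ0 : π ≠ 0 := hπp.ne_zero
  have hone : 1 = p r * τ' + p t * ρ := by
    have : π * 1 = π * (p r * τ' + p t * ρ) := by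
      calc π * 1 = p r * p (X a) + p t * p (X i) := by rw [mul_one]; exact hrt
        _ = _ := by rw [hτ', hρ]; ring
    exact mul_left_cancel₀ hπ0 this
  -- the relation divided by π
  set Q' : MvPolynomial σ ℂ := monomial (q - Finsupp.single i 1) c with hQ'
  have hQQ : (monomial q c : MvPolynomial σ ℂ) = X i * Q' := by
    rw [hQ', X, monomial_mul, one_mul]
    congr 1
    rw [add_tsub_cancel_of_le]
    rw [Finsupp.single_le_iff]
    omega
  have hrel2 : τ' * p u = - (ρ * p Q') := by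
    have : π * (τ' * p u) = π * (- (ρ * p Q')) := by
      calc π * (τ' * p u) = p (X a) * p u := by rw [hτ']; ring
        _ = - p (monomial q c) := hrel
        _ = _ := by rw [hQQ, map_mul, hρ]; ring
    exact mul_left_cancel₀ hπ0 this
  have hρu : ρ ∣ p u := by
    refine ⟨- (p r * p Q') + p t * p u, ?_⟩
    calc p u = (p r * τ' + p t * ρ) * p u := by rw [← hone, one_mul]
      _ = p r * (τ' * p u) + p t * ρ * p u := by ring
      _ = _ := by rw [hrel2]; ring
  have hρc : constantCoeff (θ (s ρ)) ≠ 0 := by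
    obtain ⟨k, hk⟩ := hρu
    have h1 := congrArg (fun e => constantCoeff (θ (s e))) hk
    rw [hθp, map_mul, map_mul, map_mul, hθ, constantCoeff_kill, ← hθ] at h1
    intro h
    rw [h, zero_mul] at h1
    exact hu0 h1
  -- the scaling on the quotient
  have hSp : ∀ (mu : σ → ℂ), scale mu F = F → ∀ g, p (scale mu (s (p g))) = p (scale mu g) := by
    intro mu hmu g
    have h1 : p (s (p g) - g) = 0 := by rw [map_sub, hs, sub_self]
    obtain ⟨k, hk⟩ := (hker _).mp h1
    have h2 := congrArg (scale mu) hk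
    rw [map_mul, hmu, map_sub] at h2
    have h3 := congrArg p h2
    rw [map_sub, map_mul, (hker F).mpr dvd_rfl, zero_mul, sub_eq_zero] at h3
    exact h3
  have hSθ : ∀ (mu : σ → ℂ), scale mu F = F → ∀ e, θ (s (p (scale mu (s e)))) = scale mu (θ (s e)) := by
    intro mu _ e
    rw [hθp, hθ, kill_scale]
  set lam' : σ → ℂ := fun j => (lam j)⁻¹ with hlam'
  have hll : ∀ j, lam j * lam' j = 1 := fun j => mul_inv_cancel₀ (hlam j)
  have hll' : ∀ j, lam' j * lam j = 1 := fun j => inv_mul_cancel₀ (hlam j)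
  have hS' : scale lam' F = F := by
    conv_lhs => rw [← hS]
    exact scale_scale lam' lam hll' F
  obtain ⟨ε, hε⟩ := hdvd (p (scale lam (s π))) (by rw [hSθ lam hS, hπz, map_zero])
  obtain ⟨ε', hε'⟩ := hdvd (p (scale lam' (s π))) (by rw [hSθ lam' hS', hπz, map_zero])
  have hmul : ∀ (mu : σ → ℂ) (e e' : MvPolynomial τ ℂ),
      p (scale mu (s (e * e'))) = p (scale mu (s e)) * p (scale mu (s e')) := by
    intro mu e e'
    rw [map_mul, map_mul, map_mul]
  have hεu : IsUnit ε := by
    -- π = S (S' π) = S (π ε') = π ε (S ε')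
    have h1 : p (scale lam (s (p (scale lam' (s π))))) = π := by
      rw [hSp lam hS, scale_scale lam lam' hll, hs]
    rw [hε', hmul, hε] at h1
    have h2 : π * (ε * p (scale lam (s ε'))) = π * 1 := by
      rw [mul_one, ← mul_assoc]; exact h1
    have h3 := mul_left_cancel₀ hπ0 h2
    exact IsUnit.of_mul_eq_one _ h3
  obtain ⟨k, hk0, hk⟩ := isUnit_const ε hεu
  have hpC : ∀ z : ℂ, p (C z : MvPolynomial σ ℂ) = C z := fun z => p.commutes z
  have hsC : ∀ z : ℂ, s (C z : MvPolynomial τ ℂ) = C z := fun z => s.commutes z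
  have hθC : ∀ z : ℂ, θ (C z : MvPolynomial σ ℂ) = C z := fun z => θ.commutes z
  have hkl : k = lam i := by
    have h1 : p (scale lam (s (p (X i)))) = C (lam i) * p (X i) := by
      rw [hSp lam hS, scale_X, map_mul, hpC]
    rw [hρ, hmul, hε, hk] at h1
    have h2 : π * (C k * p (scale lam (s ρ))) = π * (C (lam i) * ρ) := by
      calc π * (C k * p (scale lam (s ρ))) = π * C k * p (scale lam (s ρ)) := by ring
        _ = C (lam i) * (π * ρ) := h1
        _ = _ := by ring
    have h3 := mul_left_cancel₀ hπ0 h2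
    have h4 := congrArg (fun e => constantCoeff (θ (s e))) h3
    rw [map_mul, map_mul, map_mul, map_mul, map_mul, map_mul, hSθ lam hS, constantCoeff_scale, hsC,
      hsC, hθC, hθC, constantCoeff_C, constantCoeff_C] at h4
    exact mul_right_cancel₀ hρc h4
  -- a representative of π all of whose monomials have character lam i
  have hrep : ∀ M : Finset ℂ, lam i ∉ M → ∃ g' : MvPolynomial σ ℂ, p g' = π ∧
      ∀ m, coeff m g' ≠ 0 → coeff m (s π) ≠ 0 ∧ chi lam m ∉ M := by
    intro M
    induction M using Finset.induction_on with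
    | empty => intro _; exact ⟨s π, hs π, fun m hm => ⟨hm, by simp⟩⟩
    | insert μ M hμM ih =>
      intro hM
      rw [Finset.mem_insert, not_or] at hM
      obtain ⟨g', hg', hg''⟩ := ih hM.2
      have hne : lam i - μ ≠ 0 := sub_ne_zero.mpr hM.1
      refine ⟨C ((lam i - μ)⁻¹) * (scale lam g' - C μ * g'), ?_, ?_⟩
      · rw [map_mul, map_sub, map_mul, hpC, hpC, hg']
        have h1 : p (scale lam g') = π * C (lam i) := by
          rw [← hSp lam hS g', hg', hε, hk, hkl]
        rw [h1]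
        have h2 : π * C (lam i) - C μ * π = C (lam i - μ) * π := by
          rw [C_sub]; ring
        rw [h2, ← mul_assoc, ← C_mul, inv_mul_cancel₀ hne, C_1, one_mul]
      · intro m hm
        rw [coeff_C_mul, coeff_sub, coeff_C_mul, coeff_scale, ← sub_mul] at hm
        have h1 : coeff m g' ≠ 0 := by
          intro h; apply hm; rw [h, mul_zero, mul_zero]
        have h2 : chi lam m ≠ μ := by
          intro h; apply hm; rw [h, sub_self, zero_mul, mul_zero]
        refine ⟨(hg'' m h1).1, ?_⟩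
        rw [Finset.mem_insert, not_or]
        exact ⟨h2, (hg'' m h1).2⟩
  obtain ⟨g', hg', hg''⟩ := hrep (((s π).support.image (chi lam)).erase (lam i)) (by simp)
  have hXdvd : X i ∣ g' := by
    apply X_dvd_of
    intro m hm
    apply hchar
    have h1 := hg'' m hm
    by_contra hcon
    apply h1.2
    rw [Finset.mem_erase]
    exact ⟨hcon, Finset.mem_image_of_mem _ (mem_support_iff.mpr h1.1)⟩
  have hXπ : p (X i) ∣ π := by
    obtain ⟨k', hk'⟩ := hXdvd
    refine ⟨p k', ?_⟩
    rw [← map_mul, ← hk', hg']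
  have hXprime : Prime (p (X i)) := by
    have : Associated π (p (X i)) := associated_of_dvd_dvd ⟨ρ, hρ⟩ hXπ
    exact this.prime hπp
  have hfin : p (X i) ∣ p (X a) * p u := by
    rw [hrel, hQQ, map_mul]
    exact (dvd_neg).mpr (dvd_mul_right _ _)
  rcases hXprime.dvd_or_dvd hfin with ⟨h, hh⟩ | ⟨h, hh⟩
  · refine not_dvd_X F u q c a i hai hF hqi hui (s h) ?_
    rw [← hker, map_sub, map_mul, hs, hh, sub_self]
  · refine not_dvd_u F u q c a i hai hF hqi hu0 (s h) ?_
    rw [← hker, map_sub, map_mul, hs, hh, sub_self]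

end Vale.Agent.Sparse
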