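import Vale.Agent.Sparse.Three

/-!
Polynomials with at most three nonconstant terms: the classification.
-/

namespace Vale.Agent.Sparse

open MvPolynomial

variable {σ : Type}

theorem dich_monomial (m : σ →₀ ℕ) (c : ℂ) (j : σ) :
    (X j : MvPolynomial σ ℂ) ∣ monomial m c ∨ kill {j} (monomial m c) = monomial m c := by
  classical
  by_cases hj : m j = 0
  · right
    apply kill_monomial_not_mem
    intro k hk
    rw [Set.mem_singleton_iff.mp hk, hj]
  · left
    apply X_dvd_of
    intro m' hm'
    rw [coeff_monomial] at hm'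
    split_ifs at hm' with h
    · rw [← h]; exact hj
    · exact absurd rfl hm'

section transfer

variable {σ' : Type} (ι : σ → σ') (hι : Function.Injective ι)
include hι

theorem lin_rename {f : MvPolynomial σ ℂ} {j : σ'} (h : lin j (rename ι f) ≠ 0) :
    ∃ a, ι a = j ∧ coeff (Finsupp.single a 1) f ≠ 0 := by
  classical
  obtain ⟨u, hu, hc⟩ := coeff_rename_ne_zero ι f (Finsupp.single j 1) h
  have hj : j ∈ Set.range ι := by
    by_contra hcon
    have h1 := Finsupp.mapDomain_of_notMem_range u j hcon
    rw [hu, Finsupp.single_eq_same] at h1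
    exact one_ne_zero h1
  obtain ⟨a, rfl⟩ := hj
  refine ⟨a, rfl, ?_⟩
  have : u = Finsupp.single a 1 := by
    ext b
    have h1 := Finsupp.mapDomain_apply hι u b
    rw [hu] at h1
    rw [← h1, Finsupp.single_apply, Finsupp.single_apply]
    by_cases hab : a = b
    · rw [if_pos hab, if_pos (by rw [hab])]
    · rw [if_neg hab, if_neg (fun h => hab (hι h))]
  rwa [this] at hc

/-- The structure of a member of the class. -/
theorem coord_of_nice_class (f v : MvPolynomial σ ℂ) (q : σ →₀ ℕ) (c₀ c : ℂ) (a : σ)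
    (hf : f = X a * (C c₀ + v) + monomial q c) (hqa : q a = 0) (hc₀ : c₀ ≠ 0) (hc : c ≠ 0)
    (hv0 : constantCoeff v = 0) (hv : v ≠ 0)
    (hdich : ∀ j, q j ≠ 0 → X j ∣ v ∨ kill {j} v = v) (hN : Nice (rename ι f)) :
    IsCoord f := by
  classical
  have hF : rename ι f = X (ι a) * (C c₀ + rename ι v) + monomial (q.mapDomain ι) c := by
    rw [hf]
    simp only [map_add, map_mul, rename_X, rename_C, rename_monomial]
  have hq' : ∀ j, (q.mapDomain ι) (ι j) = q j := fun j => Finsupp.mapDomain_apply hι q j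
  have hrng : ∀ j', (q.mapDomain ι) j' ≠ 0 → ∃ j, ι j = j' ∧ q j ≠ 0 := by
    intro j' hj'
    have hj : j' ∈ Set.range ι := by
      by_contra hcon
      exact hj' (Finsupp.mapDomain_of_notMem_range q j' hcon)
    obtain ⟨j, rfl⟩ := hj
    exact ⟨j, rfl, by rwa [hq'] at hj'⟩
  obtain ⟨i', hi1, hi2, hi3⟩ := struct (rename ι f) (rename ι v) (q.mapDomain ι) c₀ c (ι a) hF
    (by rw [hq']; exact hqa) hc₀ hc (by rw [constantCoeff_rename]; exact hv0)
    (fun h => hv (rename_injective ι hι (by rw [h, map_zero]))) (by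
      intro j' hj'
      obtain ⟨j, rfl, hj⟩ := hrng j' hj'
      rcases hdich j hj with h | h
      · left
        have := map_dvd (rename ι : MvPolynomial σ ℂ →ₐ[ℂ] MvPolynomial σ' ℂ) h
        rwa [rename_X] at this
      · right
        rw [kill_rename ι hι, h]) hN
  obtain ⟨i, rfl, _⟩ := hrng i' (by rw [hi1]; exact one_ne_zero)
  refine coord_of_struct f v q c₀ c a i hf hqa hc₀ hc (by rw [← hq', hi1]) ?_ ?_
  · rw [kill_rename ι hι] at hi2
    exact rename_injective ι hι hi2
  · intro j hji hqj
    have h1 := hi3 (ι j) (fun h => hji (hι h)) (by rw [hq']; exact hqj)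
    rw [← kill_zero_iff, kill_rename ι hι] at h1
    rw [← kill_zero_iff]
    exact rename_injective ι hι (by rw [h1, map_zero])

/-- A polynomial with at most three terms, without constant term, whose pullback is nice. -/
theorem coord_of_three [Fintype σ'] (f : MvPolynomial σ ℂ) (hf0 : constantCoeff f = 0)
    (h3 : f.support.card ≤ 3) (hN : NiceFin (rename ι f)) : IsCoord f := by
  classical
  have hnice := hN.nice
  obtain ⟨τ, _, p, hcard, hs, hker⟩ := hN
  obtain ⟨j, hj⟩ := exists_lin hcard (rename ι f) p hs hker (by rw [constantCoeff_rename]; exact hf0)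
  obtain ⟨a, rfl, ha⟩ := lin_rename ι hι hj
  set c₀ := coeff (Finsupp.single a 1) f with hc₀
  set s := f.support.erase (Finsupp.single a 1) with hsdef
  have hmem : Finsupp.single a 1 ∈ f.support := mem_support_iff.mpr ha
  have hscard : s.card ≤ 2 := by
    rw [hsdef, Finset.card_erase_of_mem hmem]; omega
  have hsm : ∀ m ∈ s, coeff m f ≠ 0 ∧ m ≠ Finsupp.single a 1 := by
    intro m hm
    rw [hsdef, Finset.mem_erase, mem_support_iff] at hm
    exact ⟨hm.2, hm.1⟩
  have hfsum : f = C c₀ * X a + ∑ m ∈ s, monomial m (coeff m f) := by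
    conv_lhs => rw [← support_sum_monomial_coeff f, ← Finset.insert_erase hmem,
      Finset.sum_insert (Finset.notMem_erase _ _)]
    rw [X, C_mul_monomial, mul_one]
  by_cases h1 : ∀ m ∈ s, m a = 0
  · -- triangular
    rw [hfsum]
    apply coord_triangular a c₀ ha
    rw [map_sum]
    refine Finset.sum_congr rfl fun m hm => ?_
    apply kill_monomial_not_mem
    intro k hk
    rw [Set.mem_singleton_iff.mp hk]
    exact h1 m hm
  push Not at h1
  obtain ⟨m₁, hm₁s, hm₁a⟩ := h1
  by_cases h2 : ∀ m ∈ s, m a ≠ 0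
  · -- a product
    exfalso
    have hdvd : X a ∣ f := by
      apply X_dvd_of
      intro m hm
      by_cases hma : m = Finsupp.single a 1
      · rw [hma, Finsupp.single_eq_same]; exact one_ne_zero
      · exact h2 m (by rw [hsdef, Finset.mem_erase, mem_support_iff]; exact ⟨hma, hm⟩)
    obtain ⟨u, hu⟩ := hdvd
    refine not_nice_mul (rename ι f) (rename ι u) (ι a) (by rw [hu, map_mul, rename_X]) ?_ hnice
    intro k hk
    have huk : u = C k := rename_injective ι hι (by rw [hk, rename_C])
    obtain ⟨hc, hne⟩ := hsm m₁ hm₁s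
    apply hc
    rw [hu, huk, mul_comm, X, C_mul_monomial, coeff_monomial, if_neg (Ne.symm hne)]
  push Not at h2
  obtain ⟨q, hqs, hqa⟩ := h2
  have hne : m₁ ≠ q := by rintro rfl; exact hm₁a hqa
  have hs2 : s = {m₁, q} := by
    symm
    apply Finset.eq_of_subset_of_card_le
    · intro m hm
      rcases Finset.mem_insert.mp hm with rfl | hm
      · exact hm₁s
      · rw [Finset.mem_singleton.mp hm]; exact hqs
    · rw [Finset.card_pair hne]; exact hscard
  set v : MvPolynomial σ ℂ := monomial (m₁ - Finsupp.single a 1) (coeff m₁ f) with hv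
  have hle : Finsupp.single a 1 ≤ m₁ := by rw [Finsupp.single_le_iff]; omega
  have hXv : X a * v = monomial m₁ (coeff m₁ f) := by
    rw [hv, X, monomial_mul, one_mul, add_comm, tsub_add_cancel_of_le hle]
  refine coord_of_nice_class ι hι f v q c₀ (coeff q f) a ?_ hqa ha (hsm q hqs).1 ?_ ?_
    (fun j _ => dich_monomial _ _ j) hnice
  · conv_lhs => rw [hfsum]
    rw [hs2, Finset.sum_pair hne, ← hXv]
    ring
  · rw [hv, constantCoeff_monomial, if_neg]
    intro h
    apply (hsm m₁ hm₁s).2
    rw [← tsub_add_cancel_of_le hle, h, zero_add]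
  · rw [hv, Ne, monomial_eq_zero]
    exact (hsm m₁ hm₁s).1

/-- The wider class, all degenerate cases included. -/
theorem coord_of_class [Fintype σ'] (f v : MvPolynomial σ ℂ) (q : σ →₀ ℕ) (c₀ c : ℂ) (a : σ)
    (hf : f = X a * (C c₀ + v) + monomial q c) (hqa : q a = 0) (hc₀ : c₀ ≠ 0)
    (hv0 : constantCoeff v = 0)
    (hdich : ∀ j, q j ≠ 0 → X j ∣ v ∨ kill {j} v = v) (hN : NiceFin (rename ι f)) :
    IsCoord f := by
  by_cases hv : v = 0
  · have h1 : f = C c₀ * X a + monomial q c := by rw [hf, hv, add_zero, mul_comm]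
    rw [h1]
    apply coord_triangular a c₀ hc₀
    apply kill_monomial_not_mem
    intro k hk
    rw [Set.mem_singleton_iff.mp hk, hqa]
  by_cases hc : c = 0
  · exfalso
    have h1 : rename ι f = X (ι a) * rename ι (C c₀ + v) := by
      rw [hf, hc, monomial_zero, add_zero, map_mul, rename_X]
    refine not_nice_mul (rename ι f) _ (ι a) h1 ?_ hN.nice
    intro k hk
    have h2 : C c₀ + v = C k := rename_injective ι hι (by rw [hk, rename_C])
    have h3 : v = C (k - c₀) := by rw [C_sub, ← h2]; ring
    have h4 : k - c₀ = 0 := by rw [h3, constantCoeff_C] at hv0; exact hv0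
    rw [h4, C_0] at h3
    exact hv h3
  exact coord_of_nice_class ι hι f v q c₀ c a hf hqa hc₀ hc hv0 hv hdich hN.nice

omit hι in
/-- adding a constant -/
theorem niceFin_of_stable [Fintype σ'] {f : MvPolynomial σ ℂ} (h : IsCoord (rename ι f)) (d : ℂ) :
    NiceFin (rename ι (f + C d)) := by
  apply niceFin_of_coord
  have := coord_affine _ h 1 d one_ne_zero
  rwa [C_1, one_mul, ← rename_C ι d, ← map_add] at this

end transfer

theorem coord_sub_const {f : MvPolynomial σ ℂ} (d : ℂ) (h : IsCoord (f + C d)) : IsCoord f := by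
  have := coord_affine _ h 1 (-d) one_ne_zero
  rwa [C_1, one_mul, add_assoc, ← C_add, add_neg_cancel, C_0, add_zero] at this

end Vale.Agent.Sparse
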