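import Vale.Agent.Sparse.Key

/-!
Further necessary conditions, and the linear part at the origin.
-/

namespace Vale.Agent.Sparse

open MvPolynomial

variable {σ : Type}

/-- the total degree of `X a * u + c x^q` when `q a = 0` -/
theorem totalDegree_lower (u : MvPolynomial σ ℂ) (q : σ →₀ ℕ) (c : ℂ) (a : σ) (hqa : q a = 0)
    (hu : u ≠ 0) : u.totalDegree + 1 ≤ (X a * u + monomial q c).totalDegree := by
  classical
  obtain ⟨m, hm, hmd⟩ : ∃ m ∈ u.support, (m.sum fun _ e => e) = u.totalDegree := by
    have hne : u.support.Nonempty := by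
      rw [Finset.nonempty_iff_ne_empty, Ne, MvPolynomial.support_eq_empty]
      exact hu
    obtain ⟨m, hm, h⟩ := Finset.exists_mem_eq_sup u.support hne (fun m => m.sum fun _ e => e)
    exact ⟨m, hm, h.symm⟩
  have hcoef : coeff (m + Finsupp.single a 1) (X a * u + monomial q c) = coeff m u := by
    rw [coeff_add, mul_comm, coeff_mul_X, coeff_monomial, if_neg, add_zero]
    intro h
    have := congrArg (fun f : σ →₀ ℕ => f a) h
    simp [hqa] at this
  have hmem : m + Finsupp.single a 1 ∈ (X a * u + monomial q c).support := by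
    rw [mem_support_iff, hcoef]
    exact mem_support_iff.mp hm
  have h1 := le_totalDegree hmem
  rw [Finsupp.sum_add_index' (by intros; rfl) (by intros; rfl), Finsupp.sum_single_index rfl] at h1
  rw [hmd] at h1
  exact h1

theorem totalDegree_le_of_dvd {F G : MvPolynomial σ ℂ} (h : F ∣ G) (hG : G ≠ 0) :
    F.totalDegree ≤ G.totalDegree := by
  obtain ⟨k, rfl⟩ := h
  have hF : F ≠ 0 := left_ne_zero_of_mul hG
  have hk : k ≠ 0 := right_ne_zero_of_mul hG
  rw [totalDegree_mul_of_isDomain hF hk]
  omega

theorem totalDegree_sub_C_le (u : MvPolynomial σ ℂ) (k : ℂ) :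
    (u - C k).totalDegree ≤ u.totalDegree := by
  refine le_trans (totalDegree_sub _ _) ?_
  rw [totalDegree_C]
  simp

/-- `p u` is neither zero nor a unit if `u` is not constant -/
theorem not_unit_u (F u : MvPolynomial σ ℂ) (q : σ →₀ ℕ) (c : ℂ) (a : σ)
    (hF : F = X a * u + monomial q c) (hqa : q a = 0) (hu : ∀ k, u ≠ C k) (k : ℂ) :
    ¬ F ∣ u - C k := by
  intro h
  have hne : u - C k ≠ 0 := sub_ne_zero.mpr (hu k)
  have hu0 : u ≠ 0 := by
    have := hu 0
    rwa [C_0] at this
  have h1 := totalDegree_le_of_dvd h hne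
  have h2 := totalDegree_sub_C_le u k
  have h3 := totalDegree_lower u q c a hqa hu0
  rw [← hF] at h3
  omega

/-- First necessary condition. -/
theorem exists_free (F u : MvPolynomial σ ℂ) (q : σ →₀ ℕ) (c : ℂ) (a : σ)
    (hF : F = X a * u + monomial q c) (hqa : q a = 0) (hc : c ≠ 0)
    (hu0 : constantCoeff u ≠ 0) (hu : ∀ k, u ≠ C k) (hN : Nice F) :
    ∃ i, q i ≠ 0 ∧ ¬ X i ∣ u - C (constantCoeff u) := by
  by_contra hcon
  push Not at hcon
  obtain ⟨τ, p, hsurj, hker⟩ := hN
  have hpC : ∀ z : ℂ, p (C z : MvPolynomial σ ℂ) = C z := fun z => p.commutes z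
  have hpu : p u ≠ 0 := by
    intro h
    have h1 := (hker u).mp h
    refine not_unit_u F u q c a hF hqa hu 0 ?_
    rwa [C_0, sub_zero]
  have hrel : p (X a) * p u = - p (monomial q c) := by
    have h1 : p F = 0 := (hker F).mpr dvd_rfl
    rw [hF, map_add, map_mul] at h1
    exact eq_neg_of_add_eq_zero_left h1
  have hunit : IsUnit (p u) := by
    by_contra hnu
    obtain ⟨π, hπirr, hπu⟩ := WfDvdMonoid.exists_irreducible_factor hnu hpu
    have hπp : Prime π := hπirr.prime
    have h1 : π ∣ p (monomial q c) := by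
      have := dvd_mul_of_dvd_right hπu (p (X a))
      rw [hrel] at this
      exact (dvd_neg.mp this)
    rw [monomial_eq, map_mul, Finsupp.prod, map_prod] at h1
    have h2 : ¬ π ∣ p (C c) := by
      intro h
      have h3 : IsUnit (p (C c : MvPolynomial σ ℂ)) :=
        ((isUnit_iff_ne_zero.mpr hc).map (C : ℂ →+* MvPolynomial σ ℂ)).map p
      exact hπp.not_isUnit (isUnit_of_dvd_unit h h3)
    have h3 := (hπp.dvd_or_dvd h1).resolve_left h2
    obtain ⟨j, hj, hd⟩ := (Prime.dvd_finsetProd_iff hπp _).mp h3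
    rw [map_pow] at hd
    have hd' : π ∣ p (X j) := hπp.dvd_of_dvd_pow hd
    obtain ⟨k, hk⟩ := hcon j (Finsupp.mem_support_iff.mp hj)
    have h4 : π ∣ p (u - C (constantCoeff u)) := by
      rw [hk, map_mul]
      exact dvd_mul_of_dvd_left hd' _
    rw [map_sub, hpC] at h4
    have h5 : π ∣ (C (constantCoeff u) : MvPolynomial τ ℂ) := by
      have := dvd_sub hπu h4
      rwa [sub_sub_cancel] at this
    have h6 : IsUnit (C (constantCoeff u) : MvPolynomial τ ℂ) :=
      (isUnit_iff_ne_zero.mpr hu0).map (C : ℂ →+* MvPolynomial τ ℂ)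
    exact hπp.not_isUnit (isUnit_of_dvd_unit h5 h6)
  obtain ⟨k, _, hk⟩ := isUnit_const _ hunit
  refine not_unit_u F u q c a hF hqa hu k ?_
  rw [← hker, map_sub, hpC, hk, sub_self]

/-- the case of a product -/
theorem not_nice_mul (F u : MvPolynomial σ ℂ) (a : σ) (hF : F = X a * u) (hu : ∀ k, u ≠ C k) :
    ¬ Nice F := by
  rintro ⟨τ, p, hsurj, hker⟩
  have hu0 : u ≠ 0 := by
    have := hu 0
    rwa [C_0] at this
  have h1 : p (X a) * p u = 0 := by
    rw [← map_mul, ← hF]
    exact (hker F).mpr dvd_rfl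
  have hd : F.totalDegree = 1 + u.totalDegree := by
    rw [hF, totalDegree_mul_of_isDomain (X_ne_zero a) hu0, totalDegree_X]
  rcases mul_eq_zero.mp h1 with h | h
  · have h2 := totalDegree_le_of_dvd ((hker _).mp h) (X_ne_zero a)
    rw [totalDegree_X, hd] at h2
    have h3 : u.totalDegree = 0 := by omega
    rw [totalDegree_eq_zero_iff_eq_C] at h3
    exact hu _ h3
  · have h2 := totalDegree_le_of_dvd ((hker _).mp h) hu0
    omega

/-- derivative at the origin -/
noncomputable def lin (j : σ) (g : MvPolynomial σ ℂ) : ℂ := coeff (Finsupp.single j 1) g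

theorem lin_eq (j : σ) (g : MvPolynomial σ ℂ) : lin j g = constantCoeff (pderiv j g) := by
  classical
  unfold lin
  induction g using MvPolynomial.induction_on' with
  | monomial n c =>
    rw [pderiv_monomial, coeff_monomial, constantCoeff_monomial]
    by_cases h : n = Finsupp.single j 1
    · subst h
      simp
    · rw [if_neg h]
      by_cases h2 : n - Finsupp.single j 1 = 0
      · rw [if_pos h2]
        have h3 : n j = 0 := by
          by_contra hnj
          apply h
          have h4 : Finsupp.single j 1 ≤ n := by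
            rw [Finsupp.single_le_iff]; omega
          have h5 := add_tsub_cancel_of_le h4
          rw [h2, add_zero] at h5
          exact h5.symm
        rw [h3]; simp
      · rw [if_neg h2]
  | add p q hp hq => rw [coeff_add, map_add, map_add, hp, hq]

end Vale.Agent.Sparse
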