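import Vale.Agent.Sparse.More

/-!
A nice polynomial vanishing at the origin has a linear term.
-/

namespace Vale.Agent.Sparse

open MvPolynomial

variable {σ : Type}

theorem lin_aeval {τ : Type} [Fintype τ] (G : τ → MvPolynomial σ ℂ) (j : σ)
    (e : MvPolynomial τ ℂ) :
    lin j (aeval G e) = ∑ k, constantCoeff (aeval G (pderiv k e)) * lin j (G k) := by
  classical
  simp only [lin_eq]
  induction e using MvPolynomial.induction_on with
  | C a => simp
  | add p q hp hq =>
    simp only [map_add, hp, hq, add_mul, Finset.sum_add_distrib]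
  | mul_X p k hp =>
    simp only [map_mul, aeval_X, Derivation.leibniz, map_add, smul_eq_mul, hp, add_mul,
      Finset.sum_add_distrib]
    congr 1
    · simp only [pderiv_X, Pi.single_apply, map_mul]
      rw [Finset.sum_eq_single k]
      · simp
      · intro b _ hb
        simp [hb.symm]
      · intro h; exact absurd (Finset.mem_univ k) h
    · rw [Finset.mul_sum]
      refine Finset.sum_congr rfl fun i _ => ?_
      ring

theorem lin_mul (j : σ) (f g : MvPolynomial σ ℂ) :
    lin j (f * g) = constantCoeff f * lin j g + constantCoeff g * lin j f := by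
  simp only [lin_eq, Derivation.leibniz, map_add, smul_eq_mul, map_mul]

theorem exists_lin [Fintype σ] {τ : Type} [Fintype τ] (hcard : Fintype.card τ < Fintype.card σ)
    (F : MvPolynomial σ ℂ) (p : MvPolynomial σ ℂ →ₐ[ℂ] MvPolynomial τ ℂ)
    (hs : Function.Surjective p) (hker : ∀ g, p g = 0 ↔ F ∣ g) (hF0 : constantCoeff F = 0) :
    ∃ j, lin j F ≠ 0 := by
  classical
  by_contra hcon
  push Not at hcon
  choose G hG using fun k : τ => hs (X k)
  set s : MvPolynomial τ ℂ →ₐ[ℂ] MvPolynomial σ ℂ := aeval G with hsdef
  have hps : ∀ e, p (s e) = e := by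
    intro e
    have h : p.comp s = AlgHom.id ℂ (MvPolynomial τ ℂ) := by
      apply MvPolynomial.algHom_ext
      intro k
      rw [AlgHom.comp_apply, hsdef, aeval_X, hG, AlgHom.id_apply]
    exact congrArg (fun φ : MvPolynomial τ ℂ →ₐ[ℂ] MvPolynomial τ ℂ => φ e) h
  have hlin : ∀ g j, lin j (s (p g)) = lin j g := by
    intro g j
    have h1 : p (s (p g) - g) = 0 := by rw [map_sub, hps, sub_self]
    obtain ⟨k, hk⟩ := (hker _).mp h1
    have h2 : s (p g) = g + F * k := by rw [← hk]; ring
    rw [h2]
    have h3 : lin j (g + F * k) = lin j g + lin j (F * k) := coeff_add _ _ _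
    rw [h3, lin_mul, hF0, hcon, zero_mul, mul_zero, add_zero, add_zero]
  set L : (τ → ℂ) →ₗ[ℂ] (σ → ℂ) :=
    { toFun := fun v j => ∑ k, v k * lin j (G k)
      map_add' := by
        intro v w; funext j
        simp [add_mul, Finset.sum_add_distrib]
      map_smul' := by
        intro c v; funext j
        simp [Finset.mul_sum, mul_assoc] } with hL
  have hsurj : Function.Surjective L := by
    intro w
    set g : MvPolynomial σ ℂ := ∑ j, C (w j) * X j with hg
    refine ⟨fun k => constantCoeff (s (pderiv k (p g))), ?_⟩
    funext j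
    show ∑ k, constantCoeff (s (pderiv k (p g))) * lin j (G k) = w j
    rw [hsdef, ← lin_aeval, ← hsdef, hlin]
    unfold lin
    rw [hg, coeff_sum]
    simp [coeff_C_mul, coeff_X', Finsupp.single_left_inj]
  have h1 := LinearMap.finrank_le_finrank_of_surjective hsurj
  simp only [Module.finrank_fintype_fun_eq_card] at h1
  omega

end Vale.Agent.Sparse
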