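import Vale.Agent.Sparse.Coord

/-!
The structure of nice polynomials `X a * (c₀ + v) + c x^q`.
-/

namespace Vale.Agent.Sparse

open MvPolynomial

variable {σ : Type}

theorem kill_pair (i j : σ) (v : MvPolynomial σ ℂ) (hi : kill {i} v = v) (hj : kill {j} v = v) :
    kill {i, j} v = v := by
  have h1 : kill {i, j} v = kill {j} v := hom_congr {i} v hi (kill {i, j}) (kill {j}) (by
    intro k hk
    have hki : k ≠ i := by simpa using hk
    by_cases hkj : k = j
    · rw [hkj, kill_X_mem (by simp), kill_X_mem (by simp)]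
    · rw [kill_X_not_mem (by simp [hki, hkj]), kill_X_not_mem (by simpa using hkj)])
  rw [h1, hj]

theorem scale_fix (lam : σ → ℂ) (S : Set σ) (h1 : ∀ j, j ∉ S → lam j = 1) (v : MvPolynomial σ ℂ)
    (hv : kill S v = v) : scale lam v = v := by
  have := hom_congr S v hv (scale lam) (AlgHom.id ℂ _) (by
    intro j hj
    rw [scale_X, h1 j hj, C_1, one_mul, AlgHom.id_apply])
  simpa using this

theorem chi_eq_two (lam : σ → ℂ) (i j : σ) (hij : i ≠ j) (h1 : ∀ k, k ≠ i → k ≠ j → lam k = 1)
    (m : σ →₀ ℕ) : chi lam m = lam i ^ m i * lam j ^ m j := by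
  classical
  unfold chi
  rw [Finsupp.prod_of_support_subset m (s := insert i (insert j m.support)) (by
    intro k hk; simp [hk]) _ (by intro k _; simp)]
  rw [← Finset.prod_subset (s₁ := {i, j})]
  · rw [Finset.prod_pair hij]
  · intro k hk
    simp only [Finset.mem_insert, Finset.mem_singleton] at hk ⊢
    tauto
  · intro k _ hk
    simp only [Finset.mem_insert, Finset.mem_singleton, not_or] at hk
    rw [h1 k hk.1 hk.2, one_pow]

theorem chi_eq_one (lam : σ → ℂ) (i : σ) (h1 : ∀ k, k ≠ i → lam k = 1)
    (m : σ →₀ ℕ) : chi lam m = lam i ^ m i := by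
  classical
  unfold chi
  rw [Finsupp.prod_of_support_subset m (s := insert i m.support) (by
    intro k hk; simp [hk]) _ (by intro k _; simp)]
  rw [← Finset.prod_subset (s₁ := {i})]
  · rw [Finset.prod_singleton]
  · intro k hk
    simp only [Finset.mem_insert, Finset.mem_singleton] at hk ⊢
    tauto
  · intro k _ hk
    simp only [Finset.mem_singleton] at hk
    rw [h1 k hk, one_pow]

theorem struct (F v : MvPolynomial σ ℂ) (q : σ →₀ ℕ) (c₀ c : ℂ) (a : σ)
    (hF : F = X a * (C c₀ + v) + monomial q c) (hqa : q a = 0) (hc₀ : c₀ ≠ 0) (hc : c ≠ 0)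
    (hv0 : constantCoeff v = 0) (hv : v ≠ 0)
    (hdich : ∀ j, q j ≠ 0 → X j ∣ v ∨ kill {j} v = v) (hN : Nice F) :
    ∃ i, q i = 1 ∧ kill {i} v = v ∧ ∀ j, j ≠ i → q j ≠ 0 → X j ∣ v := by
  classical
  set u : MvPolynomial σ ℂ := C c₀ + v with hu
  have hu0 : constantCoeff u = c₀ := by rw [hu, map_add, constantCoeff_C, hv0, add_zero]
  have hunc : ∀ k, u ≠ C k := by
    intro k hk
    have h1 : v = C (k - c₀) := by
      rw [C_sub, ← hk, hu]; ring
    have h2 : k - c₀ = 0 := by
      rw [h1, constantCoeff_C] at hv0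
      exact hv0
    rw [h2, C_0] at h1
    exact hv h1
  have huv : u - C (constantCoeff u) = v := by rw [hu0, hu]; ring
  obtain ⟨i, hqi, hi⟩ := exists_free F u q c a hF hqa hc (by rw [hu0]; exact hc₀) hunc hN
  rw [huv] at hi
  have hki : kill {i} v = v := (hdich i hqi).resolve_left hi
  have hai : a ≠ i := by rintro rfl; exact hqi hqa
  have hkiu : kill {i} u = u := by rw [hu, map_add, kill_C, hki]
  have hnu : ¬ IsUnit (kill {i} u) := by
    rw [hkiu]
    intro h
    obtain ⟨k, _, hk⟩ := isUnit_const _ h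
    exact hunc k hk
  have hkeyi := key F u q c a i hai hF hqa hqi hc (by rw [hu0]; exact hc₀) hnu
  refine ⟨i, ?_, hki, ?_⟩
  · -- q i = 1
    by_contra hne
    have hq2 : 2 ≤ q i := by omega
    set ζ : ℂ := Complex.exp (2 * Real.pi * Complex.I / (q i : ℂ)) with hζ
    have hprim : IsPrimitiveRoot ζ (q i) := Complex.isPrimitiveRoot_exp (q i) hqi
    set lam : σ → ℂ := Function.update (fun _ => 1) i ζ with hlam
    have hlami : lam i = ζ := by simp [hlam]
    have hlamj : ∀ j, j ≠ i → lam j = 1 := by
      intro j hj; simp [hlam, Function.update_of_ne hj]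
    refine hkeyi lam ?_ ?_ ?_ hN
    · intro j
      by_cases hj : j = i
      · rw [hj, hlami]
        exact hprim.ne_zero hqi
      · rw [hlamj j hj]; exact one_ne_zero
    · have h1 : scale lam v = v := scale_fix lam {i} (by
        intro j hj; exact hlamj j (by simpa using hj)) v hki
      have h2 : scale lam (monomial q c) = monomial q c := by
        rw [scale_monomial, chi_eq_one lam i hlamj, hlami, hprim.pow_eq_one, one_mul]
      rw [hF, map_add, map_mul, h2, scale_X, hlamj a hai, C_1, one_mul, hu, map_add, scale_C, h1]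
    · intro m hm
      rw [chi_eq_one lam i hlamj, hlami] at hm
      intro h0
      rw [h0, pow_zero] at hm
      exact hprim.ne_one hq2 hm.symm
  · intro j hji hqj
    by_contra hnd
    have hkj : kill {j} v = v := (hdich j hqj).resolve_left hnd
    have haj : a ≠ j := by rintro rfl; exact hqj hqa
    set lam : σ → ℂ := fun k => if k = i then 2 ^ q j else if k = j then (2 ^ q i)⁻¹ else 1
      with hlam
    have hlami : lam i = 2 ^ q j := by simp [hlam]
    have hlamj : lam j = (2 ^ q i)⁻¹ := by simp [hlam, hji]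
    have hlamk : ∀ k, k ≠ i → k ≠ j → lam k = 1 := by
      intro k h1 h2; simp [hlam, h1, h2]
    have hij : i ≠ j := fun h => hji h.symm
    refine hkeyi lam ?_ ?_ ?_ hN
    · intro k
      by_cases h1 : k = i
      · rw [h1, hlami]; exact pow_ne_zero _ two_ne_zero
      · by_cases h2 : k = j
        · rw [h2, hlamj]; exact inv_ne_zero (pow_ne_zero _ two_ne_zero)
        · rw [hlamk k h1 h2]; exact one_ne_zero
    · have h1 : scale lam v = v := scale_fix lam {i, j} (by
        intro k hk
        simp only [Set.mem_insert_iff, Set.mem_singleton_iff, not_or] at hk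
        exact hlamk k hk.1 hk.2) v (kill_pair i j v hki hkj)
      have h2 : scale lam (monomial q c) = monomial q c := by
        rw [scale_monomial, chi_eq_two lam i j hij hlamk, hlami, hlamj, ← pow_mul, inv_pow,
          ← pow_mul, mul_comm (q i) (q j), mul_inv_cancel₀ (pow_ne_zero _ two_ne_zero), one_mul]
      rw [hF, map_add, map_mul, h2, scale_X, hlamk a hai haj, C_1, one_mul, hu, map_add, scale_C,
        h1]
    · intro m hm h0
      rw [chi_eq_two lam i j hij hlamk, h0, pow_zero, one_mul, hlami, hlamj] at hm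
      -- (2 ^ q i)⁻¹ ^ m j = 2 ^ q j
      have h1 : ((2 : ℂ) ^ q i) ^ m j * 2 ^ q j = 1 := by
        rw [← hm, inv_pow, mul_inv_cancel₀ (pow_ne_zero _ (pow_ne_zero _ two_ne_zero))]
      rw [← pow_mul, ← pow_add] at h1
      have h2 : ((2 : ℕ) ^ (q i * m j + q j) : ℕ) = 1 := by exact_mod_cast h1
      rw [Nat.pow_eq_one] at h2
      omega

end Vale.Agent.Sparse
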