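import Vale.Agent.Sparse.Struct

/-!
Polynomials with few terms.
-/

namespace Vale.Agent.Sparse

open MvPolynomial

variable {σ : Type}

theorem coeff_of_X_dvd {j : σ} {v : MvPolynomial σ ℂ} (h : X j ∣ v) (m : σ →₀ ℕ) (hm : m j = 0) :
    coeff m v = 0 := by
  classical
  obtain ⟨k, rfl⟩ := h
  rw [coeff_X_mul', if_neg]
  simpa using hm

theorem coord_of_struct (f v : MvPolynomial σ ℂ) (q : σ →₀ ℕ) (c₀ c : ℂ) (a i : σ)
    (hf : f = X a * (C c₀ + v) + monomial q c) (hqa : q a = 0) (hc₀ : c₀ ≠ 0) (hc : c ≠ 0)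
    (hqi : q i = 1) (hvi : kill {i} v = v) (hd : ∀ j, j ≠ i → q j ≠ 0 → X j ∣ v) : IsCoord f := by
  classical
  have hai : a ≠ i := by rintro rfl; omega
  set T : Finset σ := q.support.erase i with hT
  set e : σ →₀ ℕ := Finsupp.indicator T (fun _ _ => 1) with he
  have hej : ∀ j, e j = if j ∈ T then 1 else 0 := by
    intro j
    rw [he, Finsupp.indicator_apply]
    split_ifs <;> rfl
  set R : MvPolynomial σ ℂ := monomial e 1 with hR
  have hRv : R ∣ v := by
    rw [hR, monomial_one_dvd_iff_modMonomial_eq_zero]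
    ext m
    rw [coeff_zero]
    by_cases hm : e ≤ m
    · exact coeff_modMonomial_of_le _ hm
    · rw [coeff_modMonomial_of_not_le _ hm]
      rw [Finsupp.le_def] at hm
      push Not at hm
      obtain ⟨j, hj⟩ := hm
      rw [hej] at hj
      split_ifs at hj with hjT
      · rw [hT, Finset.mem_erase, Finsupp.mem_support_iff] at hjT
        exact coeff_of_X_dvd (hd j hjT.1 hjT.2) m (by omega)
      · omega
  obtain ⟨v', hv'⟩ := hRv
  have hR0 : R ≠ 0 := by rw [hR, Ne, monomial_eq_zero]; exact one_ne_zero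
  have haT : a ∉ T := by
    rw [hT, Finset.mem_erase, Finsupp.mem_support_iff]
    intro h; exact h.2 hqa
  have hiT : i ∉ T := by rw [hT]; simp
  have hRk : kill {a, i} R = R := by
    rw [hR]
    apply kill_monomial_not_mem
    intro j hj
    rcases hj with rfl | hj
    · rw [hej, if_neg haT]
    · rw [Set.mem_singleton_iff.mp hj, hej, if_neg hiT]
  have hRki : kill {i} R = R := kill_congr_of_subset (by simp) R hRk
  have hv'k : kill {i} v' = v' := by
    have h1 := congrArg (kill {i}) hv'
    rw [hvi, map_mul, hRki] at h1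
    rw [hv'] at h1
    exact (mul_left_cancel₀ hR0 h1).symm
  set q' : σ →₀ ℕ := q - Finsupp.single i 1 with hq'
  have hq'j : ∀ j, q' j = if j = i then 0 else q j := by
    intro j
    rw [hq', Finsupp.tsub_apply, Finsupp.single_apply]
    by_cases hji : j = i
    · rw [if_pos hji, if_pos hji.symm, hji]; omega
    · rw [if_neg hji, if_neg (Ne.symm hji)]; omega
  have hmon : (monomial q c : MvPolynomial σ ℂ) = C c₀ * (monomial q' (c₀⁻¹ * c) * X i) := by
    rw [X, monomial_mul, C_mul_monomial]
    have hle : Finsupp.single i 1 ≤ q := by rw [Finsupp.single_le_iff]; omega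
    rw [hq', tsub_add_cancel_of_le hle, mul_one, ← mul_assoc, mul_inv_cancel₀ hc₀, one_mul]
  set N : MvPolynomial σ ℂ := C c₀⁻¹ * X a * v' with hN
  have hfin : f = C c₀ * (X a + R * N + monomial q' (c₀⁻¹ * c) * X i) + C 0 := by
    rw [hf, hmon, hN, hv', C_0]
    have : (C c₀ : MvPolynomial σ ℂ) * C c₀⁻¹ = 1 := by
      rw [← C_mul, mul_inv_cancel₀ hc₀, C_1]
    linear_combination (- (R * X a * v')) * this
  rw [hfin]
  refine coord_affine _ ?_ _ _ hc₀
  refine coord_of a i hai R N _ (q.sum fun _ k => k) hRk ?_ ?_ ?_ ?_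
  · apply kill_monomial_not_mem
    intro j hj
    rcases hj with rfl | hj
    · rw [hq'j, if_neg hai, hqa]
    · rw [Set.mem_singleton_iff.mp hj, hq'j, if_pos rfl]
  · rw [hN, map_mul, map_mul, kill_C, hv'k, kill_X_not_mem (by simpa using hai)]
  · rw [Ne, monomial_eq_zero]
    exact mul_ne_zero (inv_ne_zero hc₀) hc
  · rw [hR, monomial_pow, one_pow, monomial_dvd_monomial]
    refine ⟨Or.inr ?_, ?_⟩
    · rw [Finsupp.le_def]
      intro j
      rw [hq'j, Finsupp.smul_apply, hej]
      by_cases hji : j = i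
      · rw [if_pos hji]; exact Nat.zero_le _
      · rw [if_neg hji]
        by_cases hj : q j = 0
        · rw [hj]; exact Nat.zero_le _
        · have hjT : j ∈ T := by
            rw [hT, Finset.mem_erase, Finsupp.mem_support_iff]
            exact ⟨hji, hj⟩
          rw [if_pos hjT, smul_eq_mul, mul_one, Finsupp.sum]
          exact Finset.single_le_sum (f := fun j => q j) (fun _ _ => Nat.zero_le _)
            (Finsupp.mem_support_iff.mpr hj)
    · exact (isUnit_iff_ne_zero.mpr (mul_ne_zero (inv_ne_zero hc₀) hc)).dvd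

/-- `F` is nice with a quotient of smaller dimension. -/
def NiceFin {σ : Type} [Fintype σ] (F : MvPolynomial σ ℂ) : Prop :=
  ∃ (τ : Type) (_ : Fintype τ) (p : MvPolynomial σ ℂ →ₐ[ℂ] MvPolynomial τ ℂ),
    Fintype.card τ < Fintype.card σ ∧ Function.Surjective p ∧ ∀ g, p g = 0 ↔ F ∣ g

theorem NiceFin.nice [Fintype σ] {F : MvPolynomial σ ℂ} (h : NiceFin F) : Nice F := by
  obtain ⟨τ, _, p, _, hs, hk⟩ := h
  exact ⟨τ, p, hs, hk⟩

theorem niceFin_X [Fintype σ] (i : σ) : NiceFin (X i : MvPolynomial σ ℂ) := by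
  classical
  refine ⟨{j // j ≠ i}, inferInstance, aeval (fun j => if h : j = i then 0 else X ⟨j, h⟩),
    ?_, ?_, ?_⟩
  · exact Fintype.card_subtype_lt (x := i) (by simp)
  · intro g
    refine ⟨rename Subtype.val g, ?_⟩
    rw [aeval_rename]
    have : (fun j : σ => if h : j = i then (0 : MvPolynomial {j // j ≠ i} ℂ) else X ⟨j, h⟩)
        ∘ Subtype.val = X := by
      funext j
      simp [j.2]
    rw [this, aeval_X_left_apply]
  · intro g
    set p : MvPolynomial σ ℂ →ₐ[ℂ] MvPolynomial {j // j ≠ i} ℂ :=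
      aeval (fun j => if h : j = i then 0 else X ⟨j, h⟩) with hp
    have hpi : p (X i) = 0 := by simp [hp]
    constructor
    · intro h
      have h1 : (rename Subtype.val).comp p = kill {i} := by
        apply MvPolynomial.algHom_ext
        intro j
        rw [AlgHom.comp_apply]
        by_cases hj : j = i
        · rw [hj, hpi, map_zero, kill_X_mem (by simp)]
        · rw [kill_X_not_mem (by simpa using hj)]
          simp [hp, hj]
      have h2 : kill {i} g = 0 := by
        rw [← h1, AlgHom.comp_apply, h, map_zero]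
      have h3 := kill_sub_mem {i} g
      rw [h2, sub_zero, Set.image_singleton, Ideal.mem_span_singleton] at h3
      exact h3
    · rintro ⟨k, rfl⟩
      rw [map_mul, hpi, zero_mul]

theorem niceFin_of_coord [Fintype σ] {F : MvPolynomial σ ℂ} (h : IsCoord F) : NiceFin F := by
  obtain ⟨e, i, he⟩ := h
  obtain ⟨τ, hτ, p, hc, hs, hk⟩ := niceFin_X i
  refine ⟨τ, hτ, p.comp e.toAlgHom, hc, ?_, ?_⟩
  · intro g
    obtain ⟨g', hg'⟩ := hs g
    refine ⟨e.symm g', ?_⟩
    rw [AlgHom.comp_apply]
    simp [hg']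
  · intro g
    rw [AlgHom.comp_apply]
    change p (e g) = 0 ↔ _
    rw [hk, ← he, map_dvd_iff]

section transfer

variable {σ' : Type} (ι : σ → σ') (hι : Function.Injective ι)
include hι

theorem kill_rename (i : σ) (v : MvPolynomial σ ℂ) :
    kill {ι i} (rename ι v) = rename ι (kill {i} v) := by
  have h : (kill {ι i}).comp (rename ι) = (rename ι).comp (kill {i}) := by
    apply MvPolynomial.algHom_ext
    intro j
    rw [AlgHom.comp_apply, AlgHom.comp_apply, rename_X]
    by_cases hj : j = i
    · rw [hj, kill_X_mem (by simp), kill_X_mem (by simp), map_zero]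
    · have h1 : ι j ∉ ({ι i} : Set σ') := by
        intro h; exact hj (hι (Set.mem_singleton_iff.mp h))
      have h2 : j ∉ ({i} : Set σ) := by
        intro h; exact hj (Set.mem_singleton_iff.mp h)
      rw [kill_X_not_mem h1, kill_X_not_mem h2, rename_X]
  exact congrArg (fun φ : MvPolynomial σ ℂ →ₐ[ℂ] MvPolynomial σ' ℂ => φ v) h

end transfer

theorem kill_zero_iff (i : σ) (v : MvPolynomial σ ℂ) : kill {i} v = 0 ↔ X i ∣ v := by
  constructor
  · intro h
    have h3 := kill_sub_mem {i} v
    rw [h, sub_zero, Set.image_singleton, Ideal.mem_span_singleton] at h3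
    exact h3
  · rintro ⟨k, rfl⟩
    rw [map_mul, kill_X_mem (by simp), zero_mul]

end Vale.Agent.Sparse
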